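import Vale.Agent.P312.Final

/-! One-tape time `t` is contained in space `t ^ (2 / 5) * log t`. -/

namespace Vale.Agent.Results.P312.ASpace

open Vale.Agent.Lib.Space

theorem result :
    (∃ δ : ℝ, 0 < δ ∧ ∀ (A : Type) [Finite A] (t : ℕ → ℕ), (∀ n, n ≤ t n) →
      TIME1 A t ⊆ SPACE A fun n => (t n : ℝ) ^ (1 / 2 - δ)) ∧
    (∀ (A : Type) [Finite A] (t : ℕ → ℕ), (∀ n, n ≤ t n) →
      TIME1 A t ⊆ SPACE A fun n => (t n : ℝ) ^ (2 / 5 : ℝ) * Real.log (t n)) ∧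
    (∀ e : ℝ, 2 / 5 < e → ∀ (A : Type) [Finite A] (t : ℕ → ℕ), (∀ n, n ≤ t n) →
      TIME1 A t ⊆ SPACE A fun n => (t n : ℝ) ^ e) ∧
    ∀ (A : Type) [Finite A] (K : Set (ℕ → ℕ)),
      sInf {e : ℝ | 0 ≤ e ∧ ∀ t ∈ K, (∀ n, n ≤ t n) →
        TIME1 A t ⊆ SPACE A fun n => (t n : ℝ) ^ e} ≤ 2 / 5 :=
  ⟨⟨1 / 20, by norm_num, fun A _ t ht => P312.time1_subset_rpow A t ht (by norm_num)⟩,
    fun A _ t ht => P312.time1_subset_space A t ht,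
    fun _ he A _ t ht => P312.time1_subset_rpow A t ht he, fun A _ K => P312.sInf_le A K⟩

end Vale.Agent.Results.P312.ASpace
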